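import Vale.Agent.P070ZE.Dens
import Vale.Agent.P070ZA.Defs
import Vale.Agent.P070Z34.Neu
import Vale.Agent.P070ZS5.Schur
import Vale.Agent.P070Z56.Root

/-!
# The transitivity theorem inside a model
-/

set_option linter.unusedSectionVars false

namespace Vale.Agent.P070Z.Kad

open Vale.Agent.P129B Vale.Agent.P070ZT

universe v

variable {N : Type v} [ZM N] {R K : Type*} [Nm K R] [Field R] [LinearOrder R]
  [IsStrictOrderedRing R] [Field K] [Algebra R K] [KA R K] [StarRing K] [CX R K]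
  [Coded N R] [RF N R] [Coded N K] [KF N R K]
  {H : Type*} [AddCommGroup H] [Module K H] [Nm H R] [Ip H K] [IA R K H] [Coded N H] [HS N R K H]
  {L : Type*} [AddCommGroup L] [Module K L] [Nm L R] [Ip L K] [IA R K L] [Coded N L] [HS N R K L]
  {A : Set (Op N K H)} {π : Op N K H → Op N K L}

include R K

theorem habs : S5.Abs N K L := fun _ hX => by
  obtain ⟨S, -, h1, h2, -, h3, -⟩ := P070Z56.exists_abs_sa hX
  exact ⟨S, h2, h1, fun Y e => (h3 Y e.symm).symm⟩

theorem weak4 (hA : CS N K A) (hπ : URp A π) (hirr : Irr A π) {D : L → L}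
    (add : ∀ x y, D (x + y) = D x + D y) (smul : ∀ (c : K) x, D (c • x) = c • D x)
    {u v : (L × L) × L × L} (h : ∀ a ∈ A, ip v.1.1 (π a u.1.1) + ip v.1.2 (π a u.1.2) +
      (ip v.2.1 (π a u.2.1) + ip v.2.2 (π a u.2.2)) = 0) :
    ip v.1.1 (D u.1.1) + ip v.1.2 (D u.1.2) + (ip v.2.1 (D u.2.1) + ip v.2.2 (D u.2.2)) = 0 := by
  have i1 := ia_prod N (L := L)
  have i2 := hs_prod N (L := L)
  have i3 := ia_prod N (L := L × L)
  have i4 := hs_prod N (L := L × L)
  have hd := hπ.defF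
  have h0 : D 0 = 0 := by simpa using smul 0 0
  have ac : Ac N A (fun a (x : L) => π a x) :=
    ⟨hA.intl, by fun_prop, ⟨hA.one, hπ.one_apply⟩,
      fun a ha b hb => ⟨hA.mul a ha b hb, hπ.toRp.mul_apply ha hb⟩,
      fun a ha => ⟨hA.star a ha, hπ.toRp.ip_star_left ha⟩⟩
  have cm : Comm N A (fun a (x : L) => π a x) D := fun E E' hE hE' adj C bd cm x => by
    obtain ⟨T, hT⟩ := exists_op (N := N) E E' hE hE' adj C bd
    obtain ⟨c, hc⟩ := S5.schur habs (F := π '' A) (T := T)
      (fun V hV cl inv => hirr V hV cl fun a ha => inv _ ⟨a, ha, rfl⟩)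
      (by rintro _ ⟨a, ha, rfl⟩; exact ⟨_, hA.star a ha, hπ.star a ha⟩)
      (by
        rintro _ ⟨a, ha, rfl⟩
        exact Op.ext fun x => by rw [Op.mul_apply, Op.mul_apply, hT, hT, cm a ha])
    rw [← hT, ← hT, hc, Op.smul_apply, Op.smul_apply, smul, Op.one_apply, Op.one_apply]
  exact ((cm.double ac add).double ac.double fun x y => Prod.ext (add _ _) (add _ _)).weak
    ac.double.double (by simp [h0]) h

theorem density_sa (hA : CS N K A) (hπ : URp A π) (hirr : Irr A π)
    {η y : L} (hη : nm η = 1) (hy : nm y = 1) (o : ip η y = 0) {ε : R} (hε : 0 < ε) :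
    ∃ a ∈ A, star a = a ∧ nm (π a η - y) ≤ ε ∧ nm (π a y - η) ≤ ε := by
  have i1 := ia_prod N (L := L)
  have i2 := hs_prod N (L := L)
  have hd := hπ.defF
  have := hA.intl
  have hC : Intl N {z : L × L | ∃ a ∈ A, star a = a ∧ (π a η, π a y) = z} :=
    intl_setOfT (by fun_prop)
  obtain ⟨_, ⟨a, ha, sa, rfl⟩, h⟩ := mem_icl_real (hC := hC)
    ⟨0, hA.zero, star_zero _, by simp [hπ.toRp.zero hA]⟩
    (by
      rintro _ ⟨a, ha, sa, rfl⟩ _ ⟨b, hb, sb, rfl⟩
      exact ⟨a + b, hA.add a ha b hb, by rw [star_add, sa, sb], by simp [hπ.add a ha b hb]⟩)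
    (by
      rintro r _ ⟨a, ha, sa, rfl⟩
      exact ⟨_, hA.smul (algebraMap R K r) a ha, by rw [star_smul, star_ofR, sa],
        by simp [hπ.smul _ a ha]⟩) (y, η)
    (fun w hw => by
      have k1 : ∀ a ∈ A, star a = a →
          ip w.1 (π a η) + ip w.2 (π a y) + (ip η (π a w.1) + ip y (π a w.2)) = 0 := by
        intro a ha sa
        have h1 := hw _ ⟨a, ha, sa, rfl⟩
        rw [← hπ.toRp.ip_star_left ha η, ← hπ.toRp.ip_star_left ha y, sa, ← star_ip w.1,
          ← star_ip w.2, ← star_add]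
        exact KA.ext (by rw [map_add, re_star, map_zero]; exact add_eq_zero_iff_eq_neg.2 (h1.trans
          (neg_eq_zero.2 h1).symm)) (by rw [map_add, im_star, map_zero, add_neg_cancel])
      have k2 := weak4 hA hπ hirr (D := fun z => ip η z • y + ip y z • η)
        (fun a b => by simp only [ip_add_right, add_smul]; abel)
        (fun c a => by simp only [ip_smul_right, smul_add, smul_smul])
        (u := ((η, y), w)) (v := (w, η, y)) fun a ha => by
          have s := hA.star a ha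
          have h1 := k1 _ (hA.add a ha _ s) (by rw [star_add, star_star, add_comm])
          have h2 := k1 _ (hA.smul KA.I _ (hA.sub a ha _ s)) (by
            rw [star_smul, star_sub, star_star, star_I, neg_smul, ← smul_neg, neg_sub])
          rw [hπ.smul _ _ (hA.sub a ha _ s), hπ.toRp.sub hA ha s] at h2
          rw [hπ.add a ha _ s] at h1
          simp only [Op.add_apply, Op.smul_apply, Op.sub_apply, ip_add_right, ip_smul_right,
            ip_sub_right] at h1 h2
          refine mul_left_cancel₀ two_ne_zero_K ?_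
          linear_combination h1 - KA.I * h2 + (ip w.1 (π a η) - ip w.1 (π (star a) η) +
            (ip w.2 (π a y) - ip w.2 (π (star a) y)) + (ip η (π a w.1) - ip η (π (star a) w.1) +
            (ip y (π a w.2) - ip y (π (star a) w.2)))) * CX.I_mul (K := K)
      simp only [ip_add_right, ip_smul_right, ip_self_one hη, ip_self_one hy, o,
        ip_eq_zero_symm o] at k2
      have k3 := congrArg KA.re k2
      simp only [map_add, one_mul, zero_mul, mul_zero, mul_one, add_zero, zero_add, map_zero,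
        re_ip_symm y w.1, re_ip_symm η w.2] at k3
      rw [ip_prod, map_add]
      linarith) ε hε
  rw [nm_sub_rev] at h
  exact ⟨a, ha, sa, ((nm_fst_le N _).trans h.le :), ((nm_snd_le N _).trans h.le :)⟩

theorem exists_bounded (hA : CS N K A) {a : Op N K H} (ha : a ∈ A) (sa : star a = a) :
    ∃ g ∈ A, g * (1 + a * a) = 1 ∧ star (g * a) = g * a ∧ nm g ≤ 1 ∧ nm (g * a) ≤ 1 := by
  obtain ⟨g, h1, h2, h3, h4⟩ := exists_inv_of_re (x := 1 + a * a) one_pos fun z => by
    rw [Op.add_apply, Op.one_apply, Op.mul_apply, ip_add_right, ← ip_sa sa, map_add, re_ip_self,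
      re_ip_self]
    linarith [sq_nonneg (nm (a z))]
  rw [inv_one] at h3
  have h5 : a * g = g * a := comm_of_inv (K := K) h1 h2 (by rw [mul_add, add_mul, mul_one, one_mul, mul_assoc])
  refine ⟨g, h4 A hA.intl hA.cld hA.one (hA.add _ hA.one _ (hA.mul a ha a ha)) hA.add hA.mul
    fun r => hA.smul (algebraMap R K r), h1, ?_, h3, ?_⟩
  · rw [star_mul, sa, star_inv_eq (K := K) (by rw [star_add, star_one, star_mul, sa]) h1, h5]
  · rw [← h5]
    refine Op.nm_le_of_ball fun z hz => le_of_sq_le_sq ?_ zero_le_one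
    have e : a (a (g z)) = z - g z := by
      have := congrArg (fun T : Op N K H => T z) h2
      simp only [Op.mul_apply, Op.add_apply, Op.one_apply] at this
      exact eq_sub_of_add_eq' this
    have h6 := (g.le_nm_of_le_one hz).trans h3
    rw [Op.mul_apply, ← re_ip_self, ip_sa sa, e, ip_sub_right, map_sub, re_ip_self]
    nlinarith [re_ip_le (g z) z, nm_nonneg (g z), nm_nonneg z]

theorem approx_orth (hA : CS N K A) (hπ : URp A π) (hirr : Irr A π)
    {η y : L} (hη : nm η = 1) (o : ip η y = 0) {ε : R} (hε : 0 < ε) :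
    ∃ f ∈ A, star f = f ∧ nm f ≤ 2 * nm y ∧ nm (π f η - y) ≤ ε := by
  rcases eq_or_ne y 0 with rfl | h0
  · exact ⟨0, hA.zero, star_zero _, by simp, by simp [hπ.toRp.zero hA, hε.le]⟩
  have hp := nm_pos_iff.2 h0
  obtain ⟨w, hw⟩ : ∃ w, w = algebraMap R K (nm y)⁻¹ • y := ⟨_, rfl⟩
  have hy : y = algebraMap R K (nm y) • w := by
    rw [hw, smul_smul, ← map_mul, mul_inv_cancel₀ hp.ne', map_one, one_smul]
  obtain ⟨a, ha, sa, h1, h2⟩ := density_sa hA hπ hirr (y := w) hη (hw ▸ nm_normalize h0)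
    (by rw [hw, ip_smul_right, o, mul_zero]) (div_pos hε (mul_pos two_pos hp))
  obtain ⟨g, hg, g1, g2, g3, g4⟩ := exists_bounded hA ha sa
  have hga := hA.mul g hg a ha
  have hf := hA.add _ hga _ hga
  refine ⟨_, hA.smul (algebraMap R K (nm y)) _ hf, by rw [star_smul, star_ofR, star_add, g2], ?_, ?_⟩
  · rw [nm_ofR_smul_of_nonneg hp.le]
    nlinarith [nm_add_le (g * a) (g * a)]
  · have e : w = π g w + π (g * a) (π a w) := by
      rw [← hπ.toRp.mul_apply hga ha, ← Op.add_apply, ← hπ.add g hg _ (hA.mul _ hga a ha), mul_assoc,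
        ← mul_one_add, g1, hπ.one_apply]
    have e2 : π (g * a + g * a) η - w = π g (π a η - w) - π (g * a) (π a w - η) := by
      rw [hπ.add _ hga _ hga, Op.add_apply, map_sub, map_sub, ← hπ.toRp.mul_apply hg ha]
      nth_rewrite 1 [e]
      abel
    have h3 := (hπ.bd g hg _).trans (mul_le_mul g3 h1 (nm_nonneg _) zero_le_one)
    have h4 := (hπ.bd _ hga _).trans (mul_le_mul g4 h2 (nm_nonneg _) zero_le_one)
    nth_rewrite 2 [hy]
    rw [hπ.smul _ _ hf, Op.smul_apply, ← smul_sub, nm_ofR_smul_of_nonneg hp.le, e2]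
    refine (mul_le_mul_of_nonneg_left ((nm_sub_le _ _).trans (add_le_add h3 h4)) hp.le).trans_eq ?_
    field_simp
    ring

theorem approx_real (hA : CS N K A) (hπ : URp A π) (hirr : Irr A π)
    {η z : L} (hη : nm η = 1) (o : KA.im (ip η z) = 0) {ε : R} (hε : 0 < ε) :
    ∃ f ∈ A, star f = f ∧ nm f ≤ 5 * nm z ∧ nm (z - π f η) ≤ ε := by
  obtain ⟨f, hf, sf, h1, h2⟩ := approx_orth hA hπ hirr (y := z - ip η z • η) hη
    (by rw [ip_sub_right, ip_smul_right, ip_self_one hη, mul_one, sub_self]) hε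
  have h3 := hA.smul (ip η z) 1 hA.one
  have h4 : nm (ip η z) ≤ nm z := by simpa only [hη, one_mul] using nm_ip_le η z
  refine ⟨_, hA.add f hf _ h3, ?_, ?_, ?_⟩
  · rw [star_add, sf, star_smul, star_one, ← KA.ofR_re o, star_ofR]
  · have h5 := nm_sub_le z (ip η z • η)
    have h6 := nm_add_le f (ip η z • (1 : Op N K H))
    rw [nm_smul] at h5
    rw [nm_smul (ip η z) (1 : Op N K H)] at h6
    have h7 := mul_le_mul_of_nonneg_left (Op.nm_one_le (N := N) (H := H)) (nm_nonneg (ip η z))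
    rw [hη] at h5
    linarith
  · rw [hπ.add f hf _ h3, hπ.smul _ _ hA.one, Op.add_apply, Op.smul_apply, hπ.one_apply,
      nm_sub_rev, ← sub_sub_eq_add_sub]
    exact h2

theorem exact_sa (hA : CS N K A) (hπ : URp A π) (hirr : Irr A π)
    {η z : L} (hη : nm η = 1) (o : KA.im (ip η z) = 0) : ∃ f ∈ A, star f = f ∧ π f η = z := by
  have hd := hπ.defF
  have := hA.intl
  have hM : 0 < nm z + 1 := by linarith [nm_nonneg z]
  obtain ⟨s, hs, -, G⟩ := exists_intl_seq (N := N) (β := Op N K H)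
    (Inv := fun n s => s ∈ A ∧ star s = s ∧ nm (z - π s η) ≤ (nm z + 1) * hp R n)
    (R := fun n s t => nm (t - s) ≤ 5 * (nm z + 1) * hp R n) (by fun_prop) (by fun_prop) 0
    ⟨hA.zero, star_zero _, by simp [hπ.toRp.zero hA]⟩ fun n s _ ⟨h1, h2, h3⟩ => by
      have h4 : KA.im (ip η (π s η)) = -KA.im (ip η (π s η)) := by
        rw [← im_star, star_ip, ← hπ.toRp.ip_star_right h1, h2]
      obtain ⟨f, hf, sf, k1, k2⟩ := approx_real hA hπ hirr (z := z - π s η) hη
        (by rw [ip_sub_right, map_sub, o]; linarith) (mul_pos hM (hp_pos (R := R) (n + 1)))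
      refine ⟨s + f, inferInstance, ⟨hA.add s h1 f hf, by rw [star_add, h2, sf], ?_⟩, ?_⟩
      · rwa [hπ.add s h1 f hf, Op.add_apply, ← sub_sub]
      · rw [add_sub_cancel_left]; linarith
  obtain ⟨f, hf, -⟩ := exists_lim_hp (DefF.ofIntl s) fun k => (G k).2
  have hfA := hA.cld.mem_of_tt hf fun k => (G k).1.1
  refine ⟨f, hfA, ?_, ?_⟩
  · have h1 := hf.map (f := fun x : Op N K H => star x) (C := 1) fun x y => by
      rw [← star_sub, Op.nm_star, one_mul]
    simp only [fun k => (G k).1.2.1] at h1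
    exact h1.uniq hf
  · refine eq_of_forall_nm_sub_le fun ε hε => ?_
    obtain ⟨n, hn⟩ := hf _ (half_pos hε)
    obtain ⟨m, hm⟩ := exists_mul_hp_lt N (nm z + 1) (half_pos hε)
    have h1 := hπ.lip hA (G (max n m)).1.1 hfA η
    have h2 := (G (max n m)).1.2.2
    rw [hη, nm_sub_rev (π _ η)] at h1
    rw [nm_sub_rev] at h2
    linarith [nm_triangle (π f η) (π (s (max n m)) η) z, hn _ (le_max_left n m),
      hm _ (le_max_right n m)]

/-- **Transitivity.** -/
theorem kadison (hA : CS N K A) (hπ : URp A π) (hirr : Irr A π)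
    {η : L} (hη : nm η = 1) (y : L) (o : ip η y = 0) :
    ∃ b ∈ A, π b η = y ∧ π (star b) η = 0 := by
  obtain ⟨f, hf, sf, h1⟩ := exact_sa hA hπ hirr (z := (2 : K)⁻¹ • y) hη
    (by rw [ip_smul_right, o, mul_zero, map_zero])
  obtain ⟨g, hg, sg, h2⟩ := exact_sa hA hπ hirr (z := (-KA.I : K) • (2 : K)⁻¹ • y) hη
    (by rw [ip_smul_right, ip_smul_right, o, mul_zero, mul_zero, map_zero])
  refine ⟨_, hA.add f hf _ (hA.smul KA.I g hg), ?_, ?_⟩
  · rw [hπ.add f hf _ (hA.smul _ g hg), hπ.smul _ g hg, Op.add_apply, Op.smul_apply, h1, h2,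
      smul_smul, mul_neg, CX.I_mul, neg_neg, one_smul, ← two_smul K, smul_inv_smul₀ two_ne_zero_K]
  · rw [star_add, star_smul, sf, sg, hπ.add f hf _ (hA.smul _ g hg), hπ.smul _ g hg, Op.add_apply,
      Op.smul_apply, h1, h2, smul_smul, star_I, neg_mul_neg, CX.I_mul, neg_one_smul, add_neg_cancel]

end Vale.Agent.P070Z.Kad
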