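import Vale.Agent.P070ZE.Prod
import Vale.Agent.P070ZA.Op

/-!
# The density theorem for four vectors
-/

set_option linter.unusedSectionVars false

namespace Vale.Agent.P070Z.Kad

open Vale.Agent.P129B

universe v

variable {N : Type v} [ZM N] {R K : Type*} [Nm K R] [Field R] [LinearOrder R]
  [IsStrictOrderedRing R] [Field K] [Algebra R K] [KA R K] [StarRing K] [CX R K]
  [Coded N R] [RF N R] [Coded N K] [KF N R K]
  {L : Type*} [AddCommGroup L] [Module K L] [Nm L R] [Ip L K] [IA R K L] [Coded N L] [HS N R K L]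
  {W : Type*} [Mul W] [One W] [Star W] [Coded N W] {A : Set W} {ρ : W → L → L} {D : L → L}

include R K

variable (N A ρ) in
/-- an action of a set with products and adjoints -/
structure Ac : Prop where
  intl : Intl N A
  defF : DefF N (fun p : W × L => ρ p.1 p.2)
  one : 1 ∈ A ∧ ∀ x, ρ 1 x = x
  mul : ∀ a ∈ A, ∀ b ∈ A, a * b ∈ A ∧ ∀ x, ρ (a * b) x = ρ a (ρ b x)
  adj : ∀ a ∈ A, star a ∈ A ∧ ∀ x y, ip (ρ (star a) x) y = ip x (ρ a y)

variable (N A ρ D) in
/-- every operator which commutes with the action commutes with `D` -/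
def Comm : Prop :=
  ∀ E E' : L → L, DefF N E → DefF N E' → (∀ x y, ip (E' x) y = ip x (E y)) →
    ∀ C : R, (∀ x, nm (E x) ≤ C * nm x) → (∀ a ∈ A, ∀ x, E (ρ a x) = ρ a (E x)) →
      ∀ x, E (D x) = D (E x)

theorem Ac.zero (h : Ac N A ρ) {a : W} (ha : a ∈ A) : ρ a 0 = 0 :=
  ext_ip_left fun w => by rw [← (h.adj a ha).2, ip_zero_right, ip_zero_right]

theorem Ac.double (h : Ac N A ρ) : Ac N A (fun a (x : L × L) => (ρ a x.1, ρ a x.2)) where
  intl := h.intl
  defF := by have := h.defF; fun_prop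
  one := ⟨h.one.1, fun x => by simp only [h.one.2]⟩
  mul a ha b hb := ⟨(h.mul a ha b hb).1, fun x => by simp only [(h.mul a ha b hb).2]⟩
  adj a ha := ⟨(h.adj a ha).1, fun x y => by simp only [ip_prod, (h.adj a ha).2]⟩

theorem Comm.double (h : Ac N A ρ) (c : Comm N A ρ D) (hD : ∀ x y, D (x + y) = D x + D y) :
    Comm N A (fun a (x : L × L) => (ρ a x.1, ρ a x.2)) (fun x => (D x.1, D x.2)) := by
  have := ia_prod N (L := L)
  intro E E' hE hE' adj C bd cm x
  have key : ∀ (i j : L → L × L) (p q : L × L → L), DefF N i → DefF N j → DefF N p → DefF N q →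
      (∀ z y, ip (q z) y = ip z (j y)) → (∀ y z, ip (i y) z = ip y (p z)) →
      (∀ y, nm (j y) ≤ nm y) → (∀ z, nm (p z) ≤ nm z) →
      (∀ a ∈ A, ∀ y, j (ρ a y) = (ρ a (j y).1, ρ a (j y).2)) →
      (∀ a ∈ A, ∀ z : L × L, p (ρ a z.1, ρ a z.2) = ρ a (p z)) →
      ∀ y, p (E (j (D y))) = D (p (E (j y))) := fun i j p q hi hj hp hq e1 e2 n1 n2 c1 c2 =>
    c (fun y => p (E (j y))) (fun y => q (E' (i y))) (by fun_prop) (by fun_prop)
      (fun y z => by rw [e1, adj, e2]) |C| (fun y => (n2 _).trans ((bd_abs bd _).trans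
        (mul_le_mul_of_nonneg_left (n1 y) (abs_nonneg C))))
      fun a ha y => by rw [c1 a ha, cm a ha, c2 a ha]
  have n1 : ∀ y : L, nm ((y, 0) : L × L) ≤ nm y := fun y => by simpa using nm_prod_le N (y, 0)
  have n2 : ∀ y : L, nm ((0, y) : L × L) ≤ nm y := fun y => by simpa using nm_prod_le N (0, y)
  have add : ∀ u w : L, E (u, w) = E (u, 0) + E (0, w) := fun u w => by
    rw [← (adj_lin (g := E) (f := E') fun x y => by rw [← star_ip, ← adj, star_ip]).1]
    simp
  have k1 := fun i p hi hp e2 m c2 => key i (fun y => (y, 0)) p Prod.fst hi (by fun_prop) hp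
    (by fun_prop) (fun z y => by simp [ip_prod]) e2 n1 m (fun a ha y => by simp [h.zero ha]) c2
  have k2 := fun i p hi hp e2 m c2 => key i (fun y => (0, y)) p Prod.snd hi (by fun_prop) hp
    (by fun_prop) (fun z y => by simp [ip_prod]) e2 n2 m (fun a ha y => by simp [h.zero ha]) c2
  have f1 : DefF N (fun y : L => ((y, 0) : L × L)) := by fun_prop
  have f2 : DefF N (fun y : L => ((0, y) : L × L)) := by fun_prop
  have g1 : DefF N (Prod.fst : L × L → L) := by fun_prop
  have g2 : DefF N (Prod.snd : L × L → L) := by fun_prop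
  have e1 : ∀ (y : L) (z : L × L), ip ((y, 0) : L × L) z = ip y z.1 := fun y z => by simp [ip_prod]
  have e2 : ∀ (y : L) (z : L × L), ip ((0, y) : L × L) z = ip y z.2 := fun y z => by simp [ip_prod]
  obtain ⟨u, w⟩ := x
  show E (D u, D w) = (D (E (u, w)).1, D (E (u, w)).2)
  rw [add, add u w]
  refine Prod.ext ?_ ?_
  · rw [Prod.fst_add, Prod.fst_add, hD, k1 _ _ f1 g1 e1 (nm_fst_le N) fun _ _ _ => rfl,
      k2 _ _ f1 g1 e1 (nm_fst_le N) fun _ _ _ => rfl]
  · rw [Prod.snd_add, Prod.snd_add, hD, k1 _ _ f2 g2 e2 (nm_snd_le N) fun _ _ _ => rfl,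
      k2 _ _ f2 g2 e2 (nm_snd_le N) fun _ _ _ => rfl]

theorem Comm.weak (h : Ac N A ρ) (c : Comm N A ρ D) (hD : D 0 = 0) {u v : L}
    (huv : ∀ a ∈ A, ip v (ρ a u) = 0) : ip v (D u) = 0 := by
  have := h.intl
  have := h.defF
  have hV : IsISub N K {w : L | ∀ a ∈ A, ip w (ρ a u) = 0} :=
    { intl := intl_setOfT (by fun_prop)
      zero := fun a _ => ip_zero_left _
      add := fun x hx y hy a ha => by rw [ip_add_left, hx a ha, hy a ha, add_zero]
      smul := fun c x hx a ha => by rw [ip_smul_left, hx a ha, mul_zero] }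
  obtain ⟨p, hp, p1, p2, p3, p4⟩ := exists_proj hV
    (cld_forall fun a => cld_forall fun _ => cld_orth (N := N) _)
  have fix : ∀ z, (∀ a ∈ A, ip z (ρ a u) = 0) → p z = z := fun z hz =>
    ext_ip_right fun w => by rw [p3, p2 w z hz]
  have inv : ∀ b ∈ A, ∀ z, (∀ a ∈ A, ip z (ρ a u) = 0) → ∀ a ∈ A, ip (ρ b z) (ρ a u) = 0 :=
    fun b hb z hz a ha => by
      rw [← star_ip, ← (h.adj b hb).2, star_ip, ← (h.mul _ (h.adj b hb).1 a ha).2]
      exact hz _ (h.mul _ (h.adj b hb).1 a ha).1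
  have h0 : p u = 0 := ext_ip_left fun w => by
    rw [← p3, ip_zero_right]
    simpa only [h.one.2] using p1 w 1 h.one.1
  rw [← fix v huv, p3, c p p hp hp p3 1 (fun x => by rw [one_mul]; exact p4 x) ?_ u, h0, hD,
    ip_zero_right]
  intro b hb x
  refine ext_ip_left fun w => ?_
  rw [← fix _ (inv b hb _ (p1 x)), ← p3, ← p3, ← (h.adj b hb).2, ← (h.adj b hb).2,
    p2 x _ (inv _ (h.adj b hb).1 _ (p1 w))]

end Vale.Agent.P070Z.Kad
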