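import Vale.Agent.P070ZS5.Dense

/-!
# Sums of two Hilbert spaces, projections, real subspaces
-/

set_option linter.unusedSectionVars false

namespace Vale.Agent.P070Z.Kad

open Vale.Agent.P129B

universe v

variable {N : Type v} [ZM N] {R K : Type*} [Nm K R] [Field R] [LinearOrder R]
  [IsStrictOrderedRing R] [Field K] [Algebra R K] [KA R K] [StarRing K] [CX R K]
  [Coded N R] [RF N R] [Coded N K] [KF N R K]
  {L : Type*} [AddCommGroup L] [Module K L] [Nm L R] [Ip L K] [IA R K L] [Coded N L] [HS N R K L]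

/-- the norm of the sum -/
noncomputable scoped instance nmProd : Nm (L × L) R :=
  ⟨fun x => rsqrt (nm x.1 ^ 2 + nm x.2 ^ 2)⟩

/-- the inner product of the sum -/
scoped instance ipProd : Ip (L × L) K := ⟨fun x y => ip x.1 y.1 + ip x.2 y.2⟩

theorem ip_prod (x y : L × L) : ip x y = ip x.1 y.1 + ip x.2 y.2 := rfl

variable (N)
include N K

theorem nm_prod_sq (x : L × L) : nm x ^ 2 = nm x.1 ^ 2 + nm x.2 ^ 2 := rsqrt_sq N (by positivity)

theorem nm_fst_le (x : L × L) : nm x.1 ≤ nm x :=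
  le_of_sq_le_sq (by rw [nm_prod_sq N]; nlinarith [sq_nonneg (nm x.2)]) (rsqrt_nonneg _)

theorem nm_snd_le (x : L × L) : nm x.2 ≤ nm x :=
  le_of_sq_le_sq (by rw [nm_prod_sq N]; nlinarith [sq_nonneg (nm x.1)]) (rsqrt_nonneg _)

theorem nm_prod_le (x : L × L) : nm x ≤ nm x.1 + nm x.2 :=
  le_of_sq_le_sq (by rw [nm_prod_sq N]; nlinarith [mul_nonneg (nm_nonneg x.1) (nm_nonneg x.2)])
    (add_nonneg (nm_nonneg _) (nm_nonneg _))

theorem ia_prod : IA R K (L × L) where
  nm_add x y := by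
    have hx : 0 ≤ nm x := rsqrt_nonneg _
    have hy : 0 ≤ nm y := rsqrt_nonneg _
    refine le_of_sq_le_sq ?_ (add_nonneg hx hy)
    have h : nm x.1 * nm y.1 + nm x.2 * nm y.2 ≤ nm x * nm y := by
      refine le_of_sq_le_sq ?_ (mul_nonneg hx hy)
      rw [mul_pow, nm_prod_sq N, nm_prod_sq N]
      nlinarith [sq_nonneg (nm x.1 * nm y.2 - nm x.2 * nm y.1)]
    rw [add_sq, nm_prod_sq N, nm_prod_sq N, nm_prod_sq N, Prod.fst_add, Prod.snd_add, nm_add_sq,
      nm_add_sq]
    linarith [re_ip_le x.1 y.1, re_ip_le x.2 y.2]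
  nm_smul c x := by
    refine (sq_eq_sq₀ (rsqrt_nonneg _) (mul_nonneg (nm_nonneg c) (rsqrt_nonneg _))).1 ?_
    have h1 := nm_prod_sq N (c • x)
    have h2 := nm_prod_sq N x
    rw [Prod.smul_fst, Prod.smul_snd, nm_smul c x.1, nm_smul c x.2] at h1
    show nm (c • x) ^ 2 = (nm c * nm x) ^ 2
    rw [h1, mul_pow (nm c) (nm x), h2]; ring
  eq_zero_of_nm x h := Prod.ext (nm_le_zero_iff.1 ((nm_fst_le N x).trans h.le))
    (nm_le_zero_iff.1 ((nm_snd_le N x).trans h.le))
  ip_add x y z := by simp only [ip_prod, Prod.fst_add, Prod.snd_add, ip_add_right]; ring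
  ip_smul c x y := by simp only [ip_prod, Prod.smul_fst, Prod.smul_snd, ip_smul_right]; ring
  ip_star x y := by simp only [ip_prod, star_add, star_ip]
  ip_self x := by rw [ip_prod, ip_self, ip_self, nm_prod_sq N, map_add]

theorem hs_prod : HS N R K (L × L) where
  defAdd := ⟨by simp only [Prod.add_def]; fun_prop⟩
  defSMul := ⟨by simp only [Prod.smul_def]; fun_prop⟩
  defNm := ⟨by show DefF N (fun x : L × L => rsqrt (nm x.1 ^ 2 + nm x.2 ^ 2)); fun_prop⟩
  defIp := by simp only [ip_prod]; fun_prop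
  lim s hs h := by
    obtain ⟨a, ha⟩ := exists_tt (N := N) (s := fun k => (s k).1) (by fun_prop) fun ε hε =>
      (h ε hε).imp fun n hn k l hk hl => (nm_fst_le N (s k - s l)).trans_lt (hn k l hk hl)
    obtain ⟨b, hb⟩ := exists_tt (N := N) (s := fun k => (s k).2) (by fun_prop) fun ε hε =>
      (h ε hε).imp fun n hn k l hk hl => (nm_snd_le N (s k - s l)).trans_lt (hn k l hk hl)
    refine ⟨(a, b), fun ε hε => ?_⟩
    obtain ⟨n, hn⟩ := ha _ (half_pos hε)
    obtain ⟨m, hm⟩ := hb _ (half_pos hε)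
    refine ⟨max n m, fun k hk => (nm_prod_le N _).trans_lt ?_⟩
    have h1 := hn k ((le_max_left _ _).trans hk)
    have h2 := hm k ((le_max_right _ _).trans hk)
    show nm ((s k).1 - a) + nm ((s k).2 - b) < ε
    linarith

variable {N}

theorem cld_orth (w : L) : Cld {x : L | ip x w = 0} :=
  cld_eq_zero (f := fun x : L => ip x w) (C := nm w) fun x y => by
    rw [← ip_sub_left, mul_comm]; exact nm_ip_le _ _

/-- The orthogonal projection onto a closed internal subspace. -/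
theorem exists_proj {V : Set L} (hV : IsISub N K V) (cl : Cld V) :
    ∃ p : L → L, DefF N p ∧ (∀ x, p x ∈ V) ∧ (∀ x, ∀ w ∈ V, ip w (p x) = ip w x) ∧
      (∀ x y, ip (p x) y = ip x (p y)) ∧ ∀ x, nm (p x) ≤ nm x := by
  have := hV.intl
  obtain ⟨p, hp, H⟩ := exists_intl_choiceT (N := N)
    (R := fun x v : L => v ∈ V ∧ ∀ w ∈ V, ip w (x - v) = 0) (by fun_prop)
    (P070Z41.exists_foot S5.isIP hV fun x hx => cl hx)
  have h1 : ∀ x, ∀ w ∈ V, ip w (p x) = ip w x := fun x w hw => by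
    have := (H x).2 w hw
    rw [ip_sub_right] at this
    exact (sub_eq_zero.1 this).symm
  refine ⟨p, DefF.ofIntl p, fun x => (H x).1, h1, fun x y => ?_, fun x => ?_⟩
  · rw [← h1 y _ (H x).1, ← star_ip, h1 x _ (H y).1, star_ip]
  · refine nm_le_of_ip (nm_nonneg x) ?_
    rw [h1 x _ (H x).1, mul_comm]
    exact nm_ip_le _ _

/-- Approximation from a real subspace. -/
theorem mem_icl_real {C : Set L} [hC : Intl N C] (h0 : (0 : L) ∈ C)
    (hadd : ∀ x ∈ C, ∀ y ∈ C, x + y ∈ C) (hsm : ∀ r : R, ∀ x ∈ C, algebraMap R K r • x ∈ C) (v : L)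
    (h : ∀ w, (∀ c ∈ C, KA.re (ip w c) = 0) → KA.re (ip w v) = 0) : v ∈ icl C := by
  have hcl : ∀ w : L, Cld {x : L | KA.re (ip w x) = 0} := fun w =>
    cld_eq_zero (F := R) (f := fun x : L => KA.re (ip w x)) (C := nm w) fun x y => by
      rw [← map_sub, ← ip_sub_right]
      exact (KA.abs_re_le_nm _).trans (nm_ip_le _ _)
  have k1 : ∀ x ∈ icl C, ∀ y ∈ icl C, x + y ∈ icl C := fun x hx y hy ε hε => by
    obtain ⟨a, ha, h1⟩ := hx (ε / 2) (half_pos hε)
    obtain ⟨b, hb, h2⟩ := hy (ε / 2) (half_pos hε)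
    refine ⟨a + b, hadd a ha b hb, ?_⟩
    rw [add_sub_add_comm]
    linarith [nm_add_le (x - a) (y - b)]
  have k2 : ∀ r : R, ∀ x ∈ icl C, algebraMap R K r • x ∈ icl C := fun r x hx =>
    map_icl (f := fun x : L => algebraMap R K r • x) (C := nm (algebraMap R K r))
      (fun x y => by rw [← smul_sub, nm_smul]) (fun y hy => sub_icl _ (hsm r y hy)) hx
  have k3 : DefF N (fun p : R × L => algebraMap R K p.1 • p.2) := by fun_prop
  have k4 : Intl N (icl C) := inferInstance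
  obtain ⟨p, hp, H⟩ : ∃ p ∈ icl C, ∀ w ∈ icl C, KA.re (ip w (v - p)) = 0 := by
    let m : Module R L := Module.compHom L (algebraMap R K)
    have na : NA R R L := ⟨nm_add_le, fun c x => nm_ofR_smul (K := K) c x, fun _ => nm_eq_zero.1⟩
    have ns : NS N R R L := { defAdd := inferInstance, defSMul := ⟨k3⟩, defNm := inferInstance }
    exact @P070Z41.exists_foot R _ _ _ R _ _ _ _ L _ m _ na N _ _ _ _ _ _ ns _
      (fun x y => KA.re (ip x y))
      (@P070Z41.IsIP.mk R _ _ _ R _ _ _ _ L _ m _ _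
        (fun x y z => by rw [ip_add_right, map_add])
        (fun c x y => by
          show KA.re (ip x (algebraMap R K c • y)) = _
          rw [ip_smul_right, KA.re_ofR_mul])
        (fun x y => by rw [re_ip_symm]; exact (KA.conj_ofR (K := R) _).symm)
        fun x => re_ip_self x) (icl C) ⟨k4, sub_icl _ h0, k1, k2⟩ (fun x hx => cld_icl _ hx) v
  have h1 : ∀ c ∈ C, KA.re (ip (v - p) c) = 0 := fun c hc => by
    rw [re_ip_symm]; exact H c (sub_icl _ hc)
  have h2 : KA.re (ip (v - p) p) = 0 := (hcl _).icl_sub h1 hp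
  have h3 : nm (v - p) ^ 2 = 0 := by
    rw [← re_ip_self, ip_sub_right, map_sub, h _ h1, h2, sub_zero]
  rw [sub_eq_zero.1 (nm_eq_zero.1 (pow_eq_zero_iff two_ne_zero |>.1 h3))]
  exact hp

end Vale.Agent.P070Z.Kad
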